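import Crest.Agent.X262.End66.Defs
import Crest.Agent.X262.Tree87.T3

/-!
# Row 262, road B (helper78): the concave end at field level, definitions

* `Cn io` : three factors `C, S, U` and the coordinates `(ξ₀, ξ_(k,l))` of `C`;
* `n.tp p = U_k μ_l`, `n.xi p = ξ_p`, `n.uT` (the minors `ξ ∧ tp`), `n.xT` (the `ξ_p`);
  `n.TB T = T + uT`, `n.TD T = T + uT + xT`;
* `wdM t` : the matrix of `w ↦ w ∧ t`;  `n.HQ z`, `HU j z`, `cU j z`, `ob B j z`, `n.K0 T z`;
* `Cd io₀ io` : the factors are `C`, `S` and those of `io₀`; `cn`, `pr`, `up`, `tgt`;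
* the statements `AStmt`, `BStmt`, `CStmt`, `ConcF`.
-/

set_option autoImplicit false
set_option linter.unusedSectionVars false

noncomputable section

namespace Crest.Agent.X262.Conc78

open Crest.Agent.X277 Crest.Agent.X277.BD
open Crest.Agent.X262.Hb Crest.Agent.X262.Vb
open Crest.Agent.X262.End66 (sum)
open Crest.Agent.X262.Tree87 (TL Rb)

variable {J : Type} [Fintype J] [DecidableEq J] {io : J → Type} [∀ j, Fintype (io j)]
  [∀ j, DecidableEq (io j)] {A : Type} [Fintype A]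

/-- the variable `(j, i)` -/
abbrev vr (j : J) (i : io j) : MvPolynomial (Vr io) ℂ := MvPolynomial.X ⟨j, i⟩

theorem mh_vr (j : J) (i : io j) : MH (vr j i) (Pi.single j 1) :=
  MvPolynomial.isWeightedHomogeneous_X ℂ (fun v : Vr io => (Pi.single v.1 1 : J → ℕ)) ⟨j, i⟩

theorem mh_sub {q q' : MvPolynomial (Vr io) ℂ} {κ : J → ℕ} (h : MH q κ) (h' : MH q' κ) :
    MH (q - q') κ :=
  (MvPolynomial.weightedHomogeneousSubmodule ℂ _ κ).sub_mem h h'

/-- the matrix of `w ↦ w ∧ t` -/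
def wdM {P : Type} [DecidableEq P] (t : P → MvPolynomial (Vr io) ℂ) :
    P × P → P → MvPolynomial (Vr io) ℂ :=
  fun b a => (if a = b.1 then t b.2 else 0) - if a = b.2 then t b.1 else 0

/-- three factors; the coordinates of `C` are `ξ₀` and `ξ_(k,l)` -/
structure Cn (io : J → Type) where
  /-- the factor `C` -/
  jC : J
  /-- the factor `S` -/
  jS : J
  /-- the factor `U` -/
  jU : J
  CS : jC ≠ jS
  CU : jC ≠ jU
  SU : jS ≠ jU
  /-- the coordinates of `C` -/
  f : Option (io jU × io jS) ≃ io jC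

namespace Cn

variable (n : Cn io)

/-- the pairs `(k, l)` -/
abbrev KL : Type := io n.jU × io n.jS

/-- `U_k μ_l` -/
def tp (p : n.KL) : MvPolynomial (Vr io) ℂ := vr n.jU p.1 * vr n.jS p.2

/-- `ξ_(k,l)` -/
def xi (p : n.KL) : MvPolynomial (Vr io) ℂ := vr n.jC (n.f (some p))

/-- the multidegree of `tp` -/
def kt : J → ℕ := Pi.single n.jU 1 + Pi.single n.jS 1

/-- the multidegree of `xi` -/
def kx : J → ℕ := Pi.single n.jC 1

/-- the multidegree of the minors -/
def kq : J → ℕ := n.kx + n.kt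

theorem mh_tp (p : n.KL) : MH (n.tp p) n.kt := (mh_vr _ _).mul (mh_vr _ _)

theorem mh_xi (p : n.KL) : MH (n.xi p) n.kx := mh_vr _ _

/-- the minors `ξ ∧ tp` -/
def uT : Tgt io (n.KL × n.KL) where
  F b := n.xi b.1 * n.tp b.2 - n.xi b.2 * n.tp b.1
  k _ := n.kq
  hom _ := mh_sub ((n.mh_xi _).mul (n.mh_tp _)) ((n.mh_xi _).mul (n.mh_tp _))

/-- the equations `ξ_(k,l) = 0` of the coordinate point of `C` -/
def xT : Tgt io n.KL where
  F := n.xi
  k _ := n.kx
  hom := n.mh_xi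

/-- `T_B'` -/
abbrev TB (T : Tgt io A) : Tgt io (A ⊕ n.KL × n.KL) := sum T n.uT

/-- `T_D` -/
abbrev TD (T : Tgt io A) : Tgt io ((A ⊕ n.KL × n.KL) ⊕ n.KL) := sum (n.TB T) n.xT

/-- the normal vector of the end -/
def Nv (T : Tgt io A) : Prop :=
  ∀ (E : Type) [Field E] [Algebra ℂ E] (y : Pnt io E), NZ y → (sum T n.xT).On y →
    ∃ w, T.jac y w = 0 ∧ ∀ p, w ⟨n.jC, n.f (some p)⟩ = pv y (n.tp p)

/-- the degrees of the concave end -/
structure Dg (d : J → ℕ) : Prop where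
  C : d n.jC = 0
  S : d n.jS = 0
  U : d n.jU ≠ 0

end Cn

section Spaces

variable {I E : Type} [Fintype I] [Field E] [Algebra ℂ E]

/-- sections with values in the range of `w ↦ w ∧ tp`; the twisting lines are `z.ea n.uT` -/
def Cn.HQ (n : Cn io) (z : Cfg io I E) : Submodule E ((n.KL × n.KL) × I → E) :=
  Rb (fun _ => n.kq) (wdM n.tp) z

/-- the sections of the normal bundle of `T_D` whose components along `xT` vanish -/
def Cn.K0 (n : Cn io) (T : Tgt io A) (z : Cfg io I E) :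
    Submodule E (((A ⊕ n.KL × n.KL) ⊕ n.KL) × I → E) :=
  z.Eb (n.TD T) ⊓ LinearMap.ker (LinearMap.funLeft E E fun x : n.KL × I => (Sum.inr x.1, x.2))

/-- sections with values in the range of `w ↦ w ∧ U` (tangent bundle of the factor, twisted) -/
def HU (j : J) (z : Cfg io I E) : Submodule E ((io j × io j) × I → E) :=
  Rb (fun _ => Pi.single j 1) (wdM (vr j)) z

/-- the sections `w ∧ U` with constant `w` -/
def cU (j : J) (z : Cfg io I E) : Submodule E ((io j × io j) × I → E) :=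
  Submodule.span E (Set.range fun (a : io j) (x : (io j × io j) × I) =>
    pv (z.y x.2) (wdM (vr j) x.1 a))

/-- the twisting lines of `HU` -/
def aU (j : J) (z : Cfg io I E) : (io j × io j) × I → BD ℂ E :=
  fun x => lw (Pi.single j 1) (z.y x.2)

/-- `c_top (H¹(O(-U)) (-X))` -/
def ob (B : Th) (j : J) (z : Cfg io I E) : Polynomial (B.H E) :=
  B.cp2 (aU j z) (cU j z) (HU j z)

end Spaces


/-- (b): the common kernel (owner 72) -/
def BStmt : Prop :=
  ∀ (B : Th), B.Ax → ∀ {J : Type} [Fintype J] [DecidableEq J] {io : J → Type}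
    [∀ j, Fintype (io j)] [∀ j, DecidableEq (io j)] {A : Type} [Fintype A] (n : Cn io)
    (T : Tgt io A) (c : ℕ) (d : J → ℕ), n.Dg d → End66.Rk (n.TB T) c d → n.Nv T →
    ∃ N : ℕ, ∀ {I K E : Type} [Fintype I] [Field K] [Algebra ℂ K] [Algebra.EssFiniteType ℂ K]
    [Field E] [Algebra ℂ E] [Algebra.EssFiniteType ℂ E] (ξ : Dat io d I K), ξ.NrmUp N →
    ∀ (p : LP K E) (z : Cfg io I E), z = ξ.cfg.red p.toPl → z.On (n.TD T) →
      B.cp (z.ea (n.TB T)) (z.Eb (n.TB T)) =
        B.cp (z.ea (n.TD T)) (n.K0 T z) * B.cp (z.ea n.uT) (n.HQ z) ∧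
      B.cp (z.ea (n.TD T)) (z.Eb (n.TD T)) =
        B.cp (z.ea (n.TD T)) (n.K0 T z) * (-Polynomial.X) ^ Fintype.card n.KL

/-- (c): the concave part (owners 46, 84) -/
def CStmt : Prop :=
  ∀ (B : Th), B.Ax → ∀ {J : Type} [Fintype J] [DecidableEq J] {io : J → Type}
    [∀ j, Fintype (io j)] [∀ j, DecidableEq (io j)] (n : Cn io) (d : J → ℕ), n.Dg d →
    ∃ N : ℕ, ∀ {I K E : Type} [Fintype I] [Field K] [Algebra ℂ K] [Algebra.EssFiniteType ℂ K]
    [Field E] [Algebra ℂ E] [Algebra.EssFiniteType ℂ E] (ξ : Dat io d I K), ξ.NrmUp N →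
    ∀ (p : LP K E) (z : Cfg io I E), z = ξ.cfg.red p.toPl →
      ((ob B n.jU z).natDegree ≤ d n.jU - 1 ∧
        (ob B n.jU z).coeff (d n.jU - 1) = (-1) ^ (d n.jU - 1)) ∧
      (z.On n.xT → ∀ q₀ : I, B.cp (z.ea n.uT) (n.HQ z) = (-Polynomial.X) ^ Fintype.card n.KL *
        (ob B n.jU z).comp (Polynomial.X + Polynomial.C (B.c1 (ln (z.y q₀) n.jS))))

/-! ### the field level statement -/

variable {J₀ : Type} [Fintype J₀] [DecidableEq J₀] {io₀ : J₀ → Type} [∀ j, Fintype (io₀ j)]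
  [∀ j, DecidableEq (io₀ j)] {A₀ : Type} [Fintype A₀]

/-- the factors are `C = e none`, `S = e (some none)` and the factors of `io₀` -/
structure Cd {J₀ J : Type} (io₀ : J₀ → Type) (io : J → Type) where
  /-- the factors -/
  e : Option (Option J₀) ≃ J
  /-- the coordinates -/
  ei : ∀ k, io₀ k ≃ io (e (some (some k)))
  /-- the factor `U` -/
  jU : J₀
  /-- the coordinates of `C` -/
  f : Option (io (e (some (some jU))) × io (e (some none))) ≃ io (e none)

namespace Cd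

variable (r : Cd io₀ io)

/-- the three factors -/
def cn : Cn io where
  jC := r.e none
  jS := r.e (some none)
  jU := r.e (some (some r.jU))
  CS := by simp
  CU := by simp
  SU := by simp
  f := r.f

/-- the projection of points -/
def pr {E : Type} (y : Pnt io E) : Pnt io₀ E := fun k i => y (r.e (some (some k))) (r.ei k i)

/-- the variables -/
def vi : Vr io₀ → Vr io := fun v => ⟨r.e (some (some v.1)), r.ei v.1 v.2⟩

/-- extension of a multidegree by zero -/
def up (κ : J₀ → ℕ) : J → ℕ := fun j => (r.e.symm j).elim 0 fun o => o.elim 0 κ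

@[simp] theorem up_C (κ : J₀ → ℕ) : r.up κ (r.e none) = 0 := by simp [up]

@[simp] theorem up_S (κ : J₀ → ℕ) : r.up κ (r.e (some none)) = 0 := by simp [up]

@[simp] theorem up_k (κ : J₀ → ℕ) (k : J₀) : r.up κ (r.e (some (some k))) = κ k := by simp [up]

theorem mh {q : MvPolynomial (Vr io₀) ℂ} {κ : J₀ → ℕ} (h : MH q κ) :
    MH (MvPolynomial.rename r.vi q) (r.up κ) := by
  intro s hs
  obtain ⟨u, rfl, hu⟩ := MvPolynomial.coeff_rename_ne_zero _ _ _ hs
  rw [← h hu]
  funext j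
  obtain ⟨j, rfl⟩ := r.e.surjective j
  rw [Finsupp.weight_apply, Finsupp.weight_apply,
    Finsupp.sum_mapDomain_index (by simp) (by simp [add_smul]), Finsupp.sum, Finsupp.sum,
    Finset.sum_apply]
  rcases j with _ | _ | j <;> simp [vi, Pi.single_apply]

/-- the pull-back of a target -/
def tgt (T : Tgt io₀ A₀) : Tgt io A₀ where
  F a := MvPolynomial.rename r.vi (T.F a)
  k a := r.up (T.k a)
  hom a := r.mh (T.hom a)

theorem pv_rename {E : Type} [Field E] [Algebra ℂ E] (y : Pnt io E)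
    (q : MvPolynomial (Vr io₀) ℂ) : pv y (MvPolynomial.rename r.vi q) = pv (r.pr y) q :=
  MvPolynomial.aeval_rename _ _ _

theorem on_tgt {E : Type} [Field E] [Algebra ℂ E] (T : Tgt io₀ A₀) (y : Pnt io E) :
    (r.tgt T).On y ↔ T.On (r.pr y) := forall_congr' fun a => by rw [← pv_rename]; rfl

end Cd

/-- concavity at field level (text of helper69; owner 62) -/
def ConcF : Prop :=
  ∀ (B : Th), B.Ax → ∀ {J : Type} [Fintype J] [DecidableEq J] {io : J → Type}
    [∀ j, Fintype (io j)] [∀ j, DecidableEq (io j)] {A : Type} [Fintype A] {J₀ : Type}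
    [Fintype J₀] [DecidableEq J₀] {io₀ : J₀ → Type} [∀ j, Fintype (io₀ j)]
    [∀ j, DecidableEq (io₀ j)] {A₀ : Type} [Fintype A₀] (r : Cd io₀ io) (T : Tgt io A) (c : ℕ)
    (Tn : Tgt io₀ A₀) (c₀ : ℕ) (d₀ : J₀ → ℕ), d₀ r.jU ≠ 0 → Good T c (r.up d₀) → Good Tn c₀ d₀ →
    (∀ b, End66.Loc T (r.cn.uT.F b)) →
    End66.Same (sum T r.cn.xT) (sum (r.tgt Tn) r.cn.xT) → r.cn.Nv T →
    ∀ {M : Type} [Fintype M] (al : M → Fam B io) (be ga : M → Fam B io₀),
    (∀ q, Cls B T (al q)) → (∀ q, Cls B Tn (be q)) → (∀ q, Cls B Tn (ga q)) →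
    (∀ q (E : Type) [Field E] [Algebra ℂ E] [Algebra.EssFiniteType ℂ E] (y : Pnt io E), NZ y →
      (sum T r.cn.xT).On y →
      al q E y = be q E (r.pr y) + hc B r.cn.jS E y * ga q E (r.pr y)) →
    Fintype.card (io r.cn.jS) = d₀ r.jU + Fintype.card M →
    ∃ k : ℂ, k ≠ 0 ∧ GW B T (r.up d₀) (prd al) = k * GW B Tn d₀ (prd ga)

end Crest.Agent.X262.Conc78
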