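import Crest.Agent.X262.Conc78.Defs
import Crest.Agent.X262.Vb.Bas1
import Crest.Agent.X262.Bub96.NormB

/-!
# Row 262, road B (helper78): the concave end, part (a)

* `exists_hv_zero` : a binary form of positive degree has a zero;
* `Cn.tree_x`, `Cn.tl_x` : curves on which the minors vanish lie in the end;
* `nrm_pv` : norming points bound the values of a form;  `Cn.x_le`, `Cn.dv_eq`;
* `aStmt : AStmt`.
-/

set_option autoImplicit false
set_option linter.unusedSectionVars false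

noncomputable section

namespace Crest.Agent.X262.Conc78

open Crest.Agent.X277 Crest.Agent.X277.BD
open Crest.Agent.X262.Hb Crest.Agent.X262.Vb
open Crest.Agent.X262.End66 (sum)
open Crest.Agent.X262.Bub96 (hv Tr)
open Crest.Agent.X262.Bub96.Tr (dot)
open Crest.Agent.X262.Tree87 (TL sb isSec_sb)

variable {J : Type} [Fintype J] [DecidableEq J] {io : J → Type} [∀ j, Fintype (io j)]
  [∀ j, DecidableEq (io j)] {A A' : Type} [Fintype A] [Fintype A']
  {I K L : Type} [Fintype I] [Field K] [Algebra ℂ K] [Field L] [Algebra ℂ L] {d κ : J → ℕ}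

theorem exists_hv_zero {k : Type} [Field k] [IsAlgClosed k] {m : ℕ} (hm : m ≠ 0)
    (f : Polynomial k) : ∃ t, hv m f t = 0 := by
  by_cases h : f.coeff m = 0
  · exact ⟨none, h⟩
  · obtain ⟨x, hx⟩ := IsAlgClosed.exists_root f
      ((Nat.cast_pos.2 (Nat.pos_of_ne_zero hm)).trans_le (Polynomial.le_degree_of_ne_zero h)).ne'
    exact ⟨some x, hx⟩

theorem hv_const {k : Type} [Field k] {m : ℕ} (hm : m = 0) {f : Polynomial k}
    (hf : f.natDegree ≤ m) (t t' : Option k) : hv m f t = hv m f t' := by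
  subst hm
  rw [Polynomial.eq_C_of_natDegree_le_zero hf]
  rcases t with _ | t <;> rcases t' with _ | t' <;> simp

theorem ev_root {k : Type} [Field k] (t : Tr k J io) (ht : t.OK) {j : J} (hj : t.deg j = 0)
    (x : t.Pt) (i : io j) : t.ev x j i = t.ev (t.root, none) j i := by
  induction t with
  | leaf d g => exact hv_const hj (ht.1 j i) _ _
  | glue t p s iht ihs =>
    have h1 : t.deg j + s.deg j = 0 := hj
    rcases x with ⟨a | a, u⟩
    · exact iht ht.1 (by omega) (a, u)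
    · exact ((ihs ht.2.1 (by omega) (a, u)).trans (ht.2.2.2 j i)).trans
        (iht ht.1 (by omega) (t.root, some p))

theorem on_sum {T : Tgt io A} {T' : Tgt io A'} {y : Pnt io K} :
    (sum T T').On y ↔ T.On y ∧ T'.On y := Sum.forall

theorem cfg_on_sum {T : Tgt io A} {T' : Tgt io A'} {z : Cfg io I K} :
    z.On (sum T T') ↔ z.On T ∧ z.On T' := (forall_congr' fun _ => on_sum).trans forall_and

theorem pv_vr (y : Pnt io K) (j : J) (i : io j) : pv y (vr j i) = y j i := MvPolynomial.aeval_X _ _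

/-! ### norming points -/

theorem nrm_map {ξ : Dat io d I K} (h : ξ.Nrm κ) (α : K →ₐ[ℂ] L) : (ξ.map α).Nrm κ := by
  intro M _ _ β
  rw [Bub96.dat_map_map]
  exact h M (β.comp α)

theorem dat_map_id (ξ : Dat io d I K) : ξ.map (AlgHom.id ℂ K) = ξ := by
  cases ξ
  simp [Dat.map]

theorem sb_pt (ξ : Dat io d I K) {F : MvPolynomial (Vr io) ℂ} (hF : MH F κ) :
    (sb ξ.f F).natDegree ≤ dot κ d ∧ ∀ t, hv (dot κ d) (sb ξ.f F) t = pv (ξ.pt t) F :=
  have h := isSec_sb hF (t := Tr.leaf d ξ.f) (Bub96.cop_of_cp ξ.cp)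
  ⟨h.1, fun t => h.2 ((), t)⟩

theorem nrm_pv {ξ : Dat io d I K} (h : ξ.Nrm κ) {F : MvPolynomial (Vr io) ℂ} (hF : MH F κ)
    {W : RZ ℂ K} {γ : W.1.ValueGroup}
    (h1 : ∀ q, W.v (pv (ξ.cfg.y q) F) ≤ γ * (lw κ (ξ.cfg.y q)).val W) (t : Option K) :
    W.v (pv (ξ.pt t) F) ≤ γ * (lw κ (ξ.pt t)).val W := by
  obtain ⟨h2, h3⟩ := sb_pt ξ hF
  obtain ⟨c, rfl⟩ := W.1.valuation_surjective γ
  by_cases hc : c = 0
  · rw [← h3, Bub96.nrm_inj h h2 fun q => (h3 _).trans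
      (show pv (ξ.cfg.y q) F = 0 by simpa [hc] using h1 q), Bub96.hv_zero, map_zero]
    exact zero_le
  · have h4 := h K (AlgHom.id ℂ K) W (Polynomial.C c⁻¹ * sb ξ.f F)
      ((Polynomial.natDegree_C_mul_le _ _).trans h2)
    simp only [dat_map_id, Bub96.hv_C_mul, h3, map_mul, map_inv₀] at h4
    have h5 : 0 < W.v c := RZ.pos hc
    exact (inv_mul_le_iff₀ h5).1 (h4 (fun q => (inv_mul_le_iff₀ h5).2 (h1 q)) t)

theorem sz_congr {P P' : Type} [Fintype P] [Fintype P'] {u : P → K} {a : P → BD ℂ K} {u' : P' → K}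
    {a' : P' → BD ℂ K} (h : ∀ V, nm a V u = nm a' V u') : sz u a = sz u' a' := by
  have h0 : u = 0 ↔ u' = 0 := by
    rw [← nm_eq_zero (a := a) (V := (LP.hom (AlgHom.id ℂ K)).V), h, nm_eq_zero]
  by_cases hu : u = 0
  · rw [hu, h0.1 hu, sz_zero, sz_zero]
  · exact BD.ext' fun V => by rw [val_sz hu, val_sz (h0.not.1 hu), h]

theorem dv_dat_map (T : Tgt io A) (ξ : Dat io d I K) (α : K →ₐ[ℂ] L) :
    (ξ.map α).cfg.dv T = pb α (ξ.cfg.dv T) := by
  have h : (ξ.map α).cfg.y = (ξ.cfg.map α).y := funext fun q => Bub96.pt_map ξ α (ξ.x q)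
  rw [← Cfg.dv_map]
  simp only [Cfg.dv]
  unfold Cfg.sv Cfg.ea
  rw [h]

namespace Cn

variable (n : Cn io)

theorem pv_xi (y : Pnt io K) (p : n.KL) : pv y (n.xi p) = y n.jC (n.f (some p)) := pv_vr _ _ _

theorem pv_tp (y : Pnt io K) (p : n.KL) : pv y (n.tp p) = y n.jU p.1 * y n.jS p.2 := by
  rw [← pv_vr y n.jU, ← pv_vr y n.jS]
  exact map_mul _ _ _

theorem pv_u (y : Pnt io K) (b : n.KL × n.KL) : pv y (n.uT.F b) =
    pv y (n.xi b.1) * pv y (n.tp b.2) - pv y (n.xi b.2) * pv y (n.tp b.1) := by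
  simp only [pv, uT, map_sub, map_mul]

theorem pv_u_zero {y : Pnt io K} {p : n.KL} (h : y n.jU p.1 = 0) (p' : n.KL) :
    pv y (n.uT.F (p, p')) = y n.jC (n.f (some p)) * (y n.jU p'.1 * y n.jS p'.2) := by
  simp [pv_u, pv_xi, pv_tp, h]


theorem kq_le (j : J) : n.kq j ≤ 1 := by
  have h1 := n.CS
  have h2 := n.CU
  have h3 := n.SU
  simp only [kq, kx, kt, Pi.add_apply, Pi.single_apply]
  split_ifs <;> simp_all

theorem lw_kx (y : Pnt io K) : lw n.kx y = ln y n.jC := lw_single _ _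

theorem lw_kq (y : Pnt io K) : lw n.kq y = ln y n.jC + (ln y n.jU + ln y n.jS) := by
  rw [kq, kt, lw_add, lw_add, lw_kx, lw_single, lw_single]

variable {n}

theorem tree_x (h : n.Dg d) {k : Type} [Field k] [Algebra ℂ k] [IsAlgClosed k] {t : Tr k J io}
    (ht : t.OK) (hd : t.deg = d) (hu : ∀ x, n.uT.On (t.ev x)) (x : t.Pt) : n.xT.On (t.ev x) := by
  subst hd
  intro p
  obtain ⟨v, -, hv0⟩ := Finset.exists_ne_zero_of_sum_ne_zero ((t.sum_vd n.jU).trans_ne h.U)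
  obtain ⟨s, hs⟩ := exists_hv_zero hv0 (t.vg v n.jU p.1)
  obtain ⟨k', hk⟩ := ht.ev_ne (v, s) n.jU
  obtain ⟨l', hl⟩ := ht.ev_ne (v, s) n.jS
  have h1 := hu (v, s) (p, (k', l'))
  rw [n.pv_u_zero (y := t.ev (v, s)) hs, mul_eq_zero_iff_right (mul_ne_zero hk hl)] at h1
  exact (n.pv_xi _ p).trans (((ev_root t ht h.C x _).trans (ev_root t ht h.C _ _).symm).trans h1)

theorem tl_x (h : n.Dg d) {z : Cfg io I K} (hz : TL d 1 z) (hu : z.On n.uT) : z.On n.xT := by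
  obtain ⟨k, _, _, _, ⟨D⟩⟩ := hz
  intro q p
  have h1 := tree_x h D.ok D.deg
    (fun x b => D.pv_eq_zero (n.uT.hom b) n.kq_le (fun q => hu q b) x) (D.sp q) p
  change pv _ (n.xi p) = 0 at h1 ⊢
  rw [pv_xi, D.ev_sp] at h1
  rw [pv_xi]
  simpa [D.c_ne] using h1

theorem x_le [IsAlgClosed K] (h : n.Dg d) {ξ : Dat io d I K} (hN : ξ.Nrm n.kq) {W : RZ ℂ K}
    {γ : W.1.ValueGroup}
    (hu : ∀ b q, W.v (pv (ξ.cfg.y q) (n.uT.F b)) ≤ γ * (lw n.kq (ξ.cfg.y q)).val W) (p : n.KL)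
    (q : I) : W.v (pv (ξ.cfg.y q) (n.xi p)) ≤ γ * (lw n.kx (ξ.cfg.y q)).val W := by
  obtain ⟨s, hs⟩ := exists_hv_zero h.U (ξ.f n.jU p.1)
  obtain ⟨k', hk⟩ := exists_ln (Bub96.nz_pt ξ s) n.jU W
  obtain ⟨l', hl⟩ := exists_ln (Bub96.nz_pt ξ s) n.jS W
  have h1 := nrm_pv hN (n.uT.hom (p, (k', l'))) (hu _) s
  change _ ≤ γ * (lw n.kq _).val W at h1
  rw [n.pv_u_zero (y := ξ.pt s) hs, lw_kq, val_add, val_add, map_mul, map_mul, hk, hl,
    ← mul_assoc γ, mul_le_mul_iff_left₀ (mul_pos (val_pos _ _) (val_pos _ _))] at h1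
  have h2 : ξ.cfg.y q n.jC = ξ.pt s n.jC := funext fun i => hv_const h.C (ξ.cp.1 _ i) _ _
  rwa [pv_xi, lw_kx, ln, h2]

theorem dv_eq (h : n.Dg d) (T : Tgt io A) {ξ : Dat io d I K} (hN : ξ.Nrm n.kq) :
    ξ.cfg.dv (n.TB T) = ξ.cfg.dv (n.TD T) := by
  refine pb_injective (IsScalarTower.toAlgHom ℂ K (AlgebraicClosure K)) ?_
  rw [← dv_dat_map, ← dv_dat_map]
  refine congrArg Neg.neg (sz_congr fun V => nm_congr fun γ => ⟨fun h1 => ?_, fun h1 x => ?_⟩)
  · rintro ⟨a | p, q⟩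
    · exact h1 (a, q)
    · exact x_le h (nrm_map hN _) (fun b q => h1 (Sum.inr b, q)) p q
  · exact h1 (Sum.inl x.1, x.2)

end Cn


end Crest.Agent.X262.Conc78
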